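import Vale.Agent.P129BH.Arith
import Vale.Agent.P129BW.Main

/-!
# Standard names; the ground model inside a generic extension
-/

namespace Vale.Agent.P129BH

open Vale.Agent.P129B

universe v w

variable {N : Type v} [ZM N] {M : Type w} [ZM M] {α : Type*} [Coded N α]

/-- the name whose entries are the members of `A`, with the condition `t` -/
noncomputable def setN (t A : N) : N := imgN A fun s => op s t

theorem mem_setN {t A s c : N} : op s c ∈ setN t A ↔ s ∈ A ∧ c = t := by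
  rw [setN, mem_imgN (by fun_prop)]
  constructor
  · rintro ⟨y, hy, e⟩
    obtain ⟨rfl, rfl⟩ := op_inj.1 e
    exact ⟨hy, rfl⟩
  · rintro ⟨hs, rfl⟩
    exact ⟨s, hs, rfl⟩

@[fun_prop] theorem defF_setN {t A : α → N} (ht : DefF N t) (hA : DefF N A) :
    DefF N (fun a => setN (t a) (A a)) := by
  unfold setN
  fun_prop

/-- the name of an unordered pair -/
noncomputable def upN (t a b : N) : N := setN t (upair a b)

/-- the name of an ordered pair -/
noncomputable def opN (t a b : N) : N := upN t (upN t a a) (upN t a b)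

@[fun_prop] theorem defF_upN {t f g : α → N} (ht : DefF N t) (hf : DefF N f) (hg : DefF N g) :
    DefF N (fun a => upN (t a) (f a) (g a)) := defF_setN ht (hf.upair hg)

@[fun_prop] theorem defF_opN {t f g : α → N} (ht : DefF N t) (hf : DefF N f) (hg : DefF N g) :
    DefF N (fun a => opN (t a) (f a) (g a)) :=
  defF_upN ht (defF_upN ht hf hf) (defF_upN ht hf hg)

theorem exists_chk (t : N) : ∃ H : N → N, DefF N H ∧ ∀ x, H x = setN t (imgN x H) :=
  mem_rec₂ (F := fun _ S => setN t S) (by fun_prop)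

/-- the standard name of a set of the ground model -/
noncomputable def chk (t : N) : N → N := (exists_chk t).choose

theorem defF_chk' (t : N) : DefF N (chk t) := (exists_chk t).choose_spec.1

@[fun_prop] theorem defF_chk (t : N) {f : α → N} (hf : DefF N f) :
    DefF N (fun a => chk t (f a)) := (defF_chk' t).comp hf

theorem chk_eq (t x : N) : chk t x = setN t (imgN x (chk t)) := (exists_chk t).choose_spec.2 x

theorem mem_chk {t x s c : N} : op s c ∈ chk t x ↔ (∃ y, y ∈ x ∧ s = chk t y) ∧ c = t := by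
  rw [chk_eq, mem_setN, mem_imgN (defF_chk' t)]

/-- `val` evaluates names along the class `G` of conditions, which contains `t`. -/
structure Val (G : N → Prop) (t : N) (val : N → M) : Prop where
  top : G t
  mem : ∀ (s : N) (x : M), x ∈ val s ↔ ∃ u c, G c ∧ op u c ∈ s ∧ x = val u

namespace Val

variable {G : N → Prop} {t : N} {val : N → M} (h : Val G t val)
include h

theorem mem_setN {A : N} {x : M} : x ∈ val (setN t A) ↔ ∃ u, u ∈ A ∧ x = val u := by
  rw [h.mem]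
  constructor
  · rintro ⟨u, c, -, h1, h2⟩
    exact ⟨u, (P129BH.mem_setN.1 h1).1, h2⟩
  · rintro ⟨u, h1, h2⟩
    exact ⟨u, t, h.top, P129BH.mem_setN.2 ⟨h1, rfl⟩, h2⟩

theorem val_upN (a b : N) : val (upN t a b) = upair (val a) (val b) :=
  ext fun z => by
    rw [upN, h.mem_setN, mem_upair]
    constructor
    · rintro ⟨u, hu, rfl⟩
      rcases mem_upair.1 hu with rfl | rfl
      exacts [Or.inl rfl, Or.inr rfl]
    · rintro (rfl | rfl)
      exacts [⟨a, mem_upair.2 (Or.inl rfl), rfl⟩, ⟨b, mem_upair.2 (Or.inr rfl), rfl⟩]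

theorem val_opN (a b : N) : val (opN t a b) = op (val a) (val b) := by
  rw [opN, h.val_upN, h.val_upN, h.val_upN, op]

theorem mem_chk {x : N} {y : M} : y ∈ val (chk t x) ↔ ∃ z, z ∈ x ∧ val (chk t z) = y := by
  rw [chk_eq, h.mem_setN]
  constructor
  · rintro ⟨u, hu, rfl⟩
    obtain ⟨z, hz, rfl⟩ := (mem_imgN (defF_chk' t)).1 hu
    exact ⟨z, hz, rfl⟩
  · rintro ⟨z, hz, rfl⟩
    exact ⟨_, (mem_imgN (defF_chk' t)).2 ⟨z, hz, rfl⟩, rfl⟩

theorem chk_inj {x y : N} (e : val (chk t x) = val (chk t y)) : x = y := by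
  by_contra hne
  obtain ⟨T, hT, htr⟩ := exists_trans (upair x y)
  obtain ⟨Pr, hPr⟩ := exists_prod T T
  have hD : DefF N (fun p : N => ∃ a b : N, p = op a b ∧ a ≠ b) := by fun_prop
  obtain ⟨B, hB⟩ := hD.sep Pr
  obtain ⟨f, hf, hf'⟩ := exists_defF_fn (α := N)
    (R := fun p z : N => ∃ a b : N, p = op a b ∧ z = opN t (chk t a) (chk t b)) (by fun_prop) (by
      rintro _ _ _ ⟨a, b, rfl, rfl⟩ ⟨a', b', e1, rfl⟩
      obtain ⟨rfl, rfl⟩ := op_inj.1 e1
      rfl)
  have key : ∀ u : M, op u u ∈ val (setN t (imgN B f)) ↔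
      ∃ a b, a ∈ T ∧ b ∈ T ∧ a ≠ b ∧ val (chk t a) = u ∧ val (chk t b) = u := by
    intro u
    rw [h.mem_setN]
    constructor
    · rintro ⟨_, hs, e1⟩
      obtain ⟨p, hp, rfl⟩ := (mem_imgN hf).1 hs
      obtain ⟨h1, a, b, rfl, hab⟩ := (hB p).1 hp
      obtain ⟨a', b', ha, hb, e2⟩ := (hPr _).1 h1
      obtain ⟨rfl, rfl⟩ := op_inj.1 e2
      rw [hf' _ _ ⟨a, b, rfl, rfl⟩, h.val_opN] at e1
      exact ⟨a, b, ha, hb, hab, (op_inj.1 e1).1.symm, (op_inj.1 e1).2.symm⟩
    · rintro ⟨a, b, ha, hb, hab, e1, e2⟩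
      refine ⟨_, (mem_imgN hf).2 ⟨op a b, (hB _).2 ⟨(hPr _).2 ⟨a, b, ha, hb, rfl⟩,
        a, b, rfl, hab⟩, rfl⟩, ?_⟩
      rw [hf' _ _ ⟨a, b, rfl, rfl⟩, h.val_opN, e1, e2]
  obtain ⟨u, hu, hmin⟩ := exists_mem_min (N := M)
    (Q := fun u => op u u ∈ val (setN t (imgN B f))) (by fun_prop) (x := val (chk t y))
    ((key _).2 ⟨x, y, htr _ hT _ (mem_upair.2 (Or.inl rfl)),
      htr _ hT _ (mem_upair.2 (Or.inr rfl)), hne, e, rfl⟩)
  have half : ∀ a b, a ∈ T → b ∈ T → val (chk t a) = u → val (chk t b) = u → ∀ c, c ∈ a →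
      c ∈ b := by
    intro a b ha hb e1 e2 c hc
    have h1 : val (chk t c) ∈ u := e1 ▸ h.mem_chk.2 ⟨c, hc, rfl⟩
    obtain ⟨d, hd, e3⟩ := h.mem_chk.1 (e2 ▸ h1 : val (chk t c) ∈ val (chk t b))
    by_contra h2
    exact hmin _ h1 ((key _).2 ⟨c, d, htr _ ha _ hc, htr _ hb _ hd, fun e4 => h2 (e4 ▸ hd),
      rfl, e3⟩)
  obtain ⟨a, b, ha, hb, hab, e1, e2⟩ := (key u).1 hu
  exact hab (ext fun c => ⟨half a b ha hb e1 e2 c, half b a hb ha e2 e1 c⟩)

/-- **The ground model is a transitive class of the extension.** -/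
theorem ext_chk : Ext (fun x => val (chk t x)) :=
  ⟨fun _ _ => h.chk_inj, fun _ _ => h.mem_chk⟩

end Val

/-! ### Names from definable families -/

/-- the name with the entries `(f a, c a)` for `a ∈ s` -/
noncomputable def famN (s : Set α) (f c : α → N) : N := code N ((fun a => op (f a) (c a)) '' s)

theorem mem_famN {s : Set α} [Intl N s] {f c : α → N} (hf : DefF N f) (hc : DefF N c) {u d : N} :
    op u d ∈ famN s f c ↔ ∃ a ∈ s, f a = u ∧ c a = d := by
  rw [famN, mem_code_set (intl_image (hf.op hc) s)]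
  constructor
  · rintro ⟨_, ⟨a, ha, rfl⟩, e⟩
    exact ⟨a, ha, op_inj.1 e⟩
  · rintro ⟨a, ha, rfl, rfl⟩
    exact ⟨_, ⟨a, ha, rfl⟩, rfl⟩

theorem Val.mem_famN {G : N → Prop} {t : N} {val : N → M} (h : Val G t val) {s : Set α}
    [Intl N s] {f c : α → N} (hf : DefF N f) (hc : DefF N c) {x : M} :
    x ∈ val (famN s f c) ↔ ∃ a ∈ s, G (c a) ∧ x = val (f a) := by
  rw [h.mem]
  constructor
  · rintro ⟨u, d, h1, h2, rfl⟩
    obtain ⟨a, ha, rfl, rfl⟩ := (P129BH.mem_famN hf hc).1 h2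
    exact ⟨a, ha, h1, rfl⟩
  · rintro ⟨a, ha, h1, rfl⟩
    exact ⟨_, _, h1, (P129BH.mem_famN hf hc).2 ⟨a, ha, rfl, rfl⟩, rfl⟩

/-- The interface for a filter `G` on a coded type of conditions. -/
theorem val_of_filter {P : Type*} [Coded N P] {G : Set P} {top : P} (ht : top ∈ G) {val : N → M}
    (H : ∀ (s : N) (x : M), x ∈ val s ↔ ∃ u c, c ∈ G ∧ op u (code N c) ∈ s ∧ x = val u) :
    Val (fun d => ∃ c ∈ G, code N c = d) (code N top) val :=
  ⟨⟨top, ht, rfl⟩, fun s x => (H s x).trans ⟨fun ⟨u, c, h1, h2⟩ => ⟨u, _, ⟨c, h1, rfl⟩, h2⟩,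
    fun ⟨u, _, ⟨c, h1, rfl⟩, h2⟩ => ⟨u, c, h1, h2⟩⟩⟩

/-- A generic subset of a set of the ground model: the elements `a` with `c a` in the filter. -/
theorem Val.intl_generic {G : N → Prop} {t : N} {val : N → M} (h : Val G t val) [Tot N α]
    {α' : Type*} [Coded M α'] {e : α → α'} (te : Tr (fun x => val (chk t x)) e) {ι : Type*}
    [Coded N ι] [Tot N ι] {f : ι → α} {c : ι → N} (hf : DefF N f) (hc : DefF N c) :
    Intl M {x : α' | ∃ i, G (c i) ∧ e (f i) = x} := by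
  refine intl_set.2 ⟨?_, val (famN Set.univ (fun i => chk t (code N (f i))) c), fun x => ?_⟩
  · rintro _ ⟨i, -, rfl⟩
    exact te.intl _
  · rw [h.mem_famN (by fun_prop) hc]
    constructor
    · rintro ⟨i, -, h1, rfl⟩
      exact ⟨_, ⟨i, h1, rfl⟩, te.code _⟩
    · rintro ⟨_, ⟨i, h1, rfl⟩, rfl⟩
      exact ⟨i, trivial, h1, te.code _⟩

end Vale.Agent.P129BH
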