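import Vale.Agent.P129BH.Ext
import Vale.Agent.P129B.Rec

/-!
# End extensions: recursion and arithmetic are absolute
-/

namespace Vale.Agent.P129BH

open Vale.Agent.P129B

universe v w

variable {N : Type v} [ZM N] {M : Type w} [ZM M] {j : N → M}
variable {β : Type*} [Coded N β] {β' : Type*} [Coded M β']

namespace Ext

variable (h : Ext j)
include h

/-- An internal sequence of `N` which solves the recursion equations of a sequence of `M`. -/
theorem seq_eq {e : β → β'} (t : Tr j e) {u : NN N → β} (hu : DefF N u) {u' : NN M → β'}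
    (hu' : DefF M u') (h0 : u' 0 = e (u 0))
    (hs : ∀ n, u' (h.nn n) = e (u n) → u' (h.nn n).succ = e (u n.succ)) (n : NN N) :
    u' (h.nn n) = e (u n) := by
  have h1 := h.defF (e := h.nn.toEquiv) h.tr_nn t hu
  have h2 : ∀ m : NN M, u' m = e (u (h.nn.toEquiv.symm m)) := by
    refine NN.ind' (hu'.eq h1) ?_ fun m ih => ?_
    · rw [h0, ← h.nn_zero]
      exact congrArg (fun x => e (u x)) (h.nn.symm_apply_apply 0).symm
    · obtain ⟨k, rfl⟩ := h.nn.surjective m
      have e1 : h.nn.toEquiv.symm (h.nn k) = k := h.nn.symm_apply_apply k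
      have e2 : h.nn.toEquiv.symm (h.nn k).succ = k.succ := by
        rw [← h.nn_succ]; exact h.nn.symm_apply_apply _
      rw [e1] at ih
      rw [e2]
      exact hs k ih
  rw [h2]
  exact congrArg (fun x => e (u x)) (h.nn.symm_apply_apply n)

theorem irec_eq {e : β → β'} (t : Tr j e) (z : β) [Intl N z] {s : NN N → β → β}
    {s' : NN M → β' → β'} (hs : DefF N (fun p : NN N × β => s p.1 p.2))
    (hs' : DefF M (fun p : NN M × β' => s' p.1 p.2))
    (H : ∀ n b, Intl N b → s' (h.nn n) (e b) = e (s n b)) (n : NN N) :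
    irec (e z) s' (h.nn n) = e (irec z s n) := by
  have := t.intl z
  have h1 := intl_irec (z := z) hs
  have h2 := intl_irec (z := e z) hs'
  refine h.seq_eq t (DefF.ofIntl (irec z s)) (DefF.ofIntl (irec (e z) s')) (by simp)
    (fun n ih => ?_) n
  rw [irec_succ' hs, irec_succ' hs', ih, H _ _ inferInstance]

theorem nn_add (m n : NN N) : h.nn (m + n) = h.nn m + h.nn n :=
  (h.irec_eq h.tr_nn m (by fun_prop) (by fun_prop) (fun _ b _ => (h.nn_succ b).symm) n).symm

theorem nn_one : h.nn 1 = 1 := (h.nn_succ 0).trans (congrArg NN.succ h.nn_zero)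

theorem nn_mul (m n : NN N) : h.nn (m * n) = h.nn m * h.nn n := by
  have := h.irec_eq h.tr_nn 0 (s := fun _ b => b + m) (s' := fun _ b => b + h.nn m)
    (by fun_prop) (by fun_prop) (fun _ b _ => (h.nn_add b m).symm) n
  rw [h.nn_zero] at this
  exact this.symm

/-- the natural numbers of the two models, as semirings -/
noncomputable def nnR : NN N ≃+* NN M where
  toEquiv := h.nn.toEquiv
  map_mul' := h.nn_mul
  map_add' := h.nn_add

theorem nnR_apply (n : NN N) : h.nnR n = h.nn n := rfl

theorem nn_pow (m : NN N) (k : ℕ) : h.nn (m ^ k) = h.nn m ^ k := map_pow h.nnR m k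

theorem nn_natCast (k : ℕ) : h.nn (k : NN N) = k := map_natCast h.nnR k

theorem nn_ofNat (k : ℕ) [k.AtLeastTwo] : h.nn (OfNat.ofNat k : NN N) = OfNat.ofNat k :=
  map_ofNat h.nnR k

theorem nn_lt {m n : NN N} : h.nn m < h.nn n ↔ m < n := h.nn.lt_iff_lt

theorem nn_le {m n : NN N} : h.nn m ≤ h.nn n ↔ m ≤ n := h.nn.le_iff_le

theorem nn_sub (m n : NN N) : h.nn (m - n) = h.nn m - h.nn n := by
  rcases le_total n m with h1 | h1
  · have h2 : h.nn m = h.nn n + h.nn (m - n) := by rw [← h.nn_add, add_tsub_cancel_of_le h1]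
    rw [h2, add_tsub_cancel_left]
  · rw [tsub_eq_zero_of_le h1, tsub_eq_zero_of_le (h.nn_le.2 h1), h.nn_zero]

theorem forall_nn {Q : NN M → Prop} : (∀ m, Q m) ↔ ∀ n, Q (h.nn n) := h.nn.surjective.forall

theorem exists_nn {Q : NN M → Prop} : (∃ m, Q m) ↔ ∃ n, Q (h.nn n) := h.nn.surjective.exists

end Ext

/-! ### Sets of the model which are given as types -/

variable (N) in
/-- the set of the codes of the elements of a type -/
noncomputable def car (α : Type*) [Coded N α] : N := code N (Set.univ : Set α)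

theorem mem_car {α : Type*} [Coded N α] [Tot N α] {x : N} : x ∈ car N α ↔ ∃ a : α, code N a = x :=
  (mem_code_set inferInstance).trans (exists_congr fun _ => and_iff_right trivial)

variable (N) in
/-- a type all of whose elements are internal, as the elements of a set -/
noncomputable def toEl (α : Type*) [Coded N α] [Tot N α] : α ≃ El (car N α) :=
  Equiv.ofBijective (fun a => ⟨code N a, mem_car.2 ⟨a, rfl⟩⟩)
    ⟨fun _ _ e => code_inj inferInstance inferInstance (congrArg Subtype.val e), fun y => by
      obtain ⟨a, ha⟩ := mem_car.1 y.2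
      exact ⟨a, Subtype.ext ha⟩⟩

/-- the elements of a set of `N`, given as a type, as the elements of a set of `M` -/
noncomputable def Ext.ty (h : Ext j) (α : Type*) [Coded N α] [Tot N α] : α ≃ El (j (car N α)) :=
  (toEl N α).trans (h.el _)

theorem Ext.ty_val (h : Ext j) {α : Type*} [Coded N α] [Tot N α] (a : α) :
    (h.ty α a).1 = j (code N a) := rfl

theorem Ext.tr_ty (h : Ext j) (α : Type*) [Coded N α] [Tot N α] : Tr j (h.ty α) :=
  fun _ _ => ⟨inferInstance, rfl⟩

end Vale.Agent.P129BH
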