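import Vale.Agent.P129BH.Trans
import Vale.Agent.P129BC.GExt
import Vale.Agent.P129B72.MS
import Vale.Agent.P129BR.Main
import Vale.Agent.P129BF.Has
import Vale.Agent.P129BL.Meas2
import Vale.Agent.P129BL.Erd
import Vale.Agent.P129BC1.Erd

/-!
# From a model with a large cardinal to a model of the free set principle: the glue
-/

namespace Vale.Agent.P129BH

open Vale.Agent.P323.Z Vale.Agent.P129Z.S Vale.Agent.P129B

universe v

/-- Random forcing exists in the model. -/
def POSET (N : Type v) [ZM N] : Prop :=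
  ∀ A : N, Nonempty (El A) → Nonempty (MS N (El A) (IS N (El A × NN N × NN N → NN N)) (RR N)
      fun k => (k + 1) ^ 2) →
    ∃ (P : Type v) (_ : Coded N P) (_ : Tot N P) (_ : Preorder P) (_ : OrderTop P)
      (_ : DefLE N P) (ev : El A → NN N → NN N → NN N → P → Prop),
      RFo N (El A) P (fun k => (k + 1) ^ 2) ev

theorem fs_of_free {N : Type v} [ZM N] [Countable N] (hP : POSET N) {A : N}
    (hA : Nonempty (El A)) (hF : HasFree N (El A)) : ∃ (M : Type v) (_ : ZM M), FS M := by
  obtain ⟨P, _, _, _, _, _, ev, hR⟩ := hP A hA (exists_MS RF.lub)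
  obtain ⟨M, _, j, G, hj, hG⟩ := exists_gExt (N := N) P
  exact ⟨M, _, P129BH.fs_of hj hG hR hF⟩

theorem exists_FS_of (hP : ∀ (N : Type) [ZM N], POSET N) {M : Type v}
    {E : M → M → Prop} (h : IsZFCModel E) (a : S.HasMeasurable E ∨ S.HasErdos E) :
    ∃ (N : Type) (_ : ZM N), FS N := by
  rcases a with a | a
  · obtain ⟨N, _, _, k, U, hU⟩ := P129BL.exists_countable_iult'.{0} h a
    exact fs_of_free (hP N) (hU.nonempty hU.univ).to_type (hasFree hU)
  · obtain ⟨N, _, j, _, hj⟩ := P129BL.exists_countable.{0} h.1 h.2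
    obtain ⟨A, hA⟩ := C1.erd_of_hasErdos (hj.hasErdos a)
    obtain ⟨H, -, ⟨x, -⟩, -⟩ := hA (fun _ => True) (DefF.const True)
    exact fs_of_free (hP N) ⟨x⟩ (C1.hasFree_of_erd hA)

end Vale.Agent.P129BH
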