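import Vale.Agent.P129BH.Con0
import Vale.Agent.P129BQ.RFo

/-!
# From a model with a large cardinal to a model of the free set principle
-/

namespace Vale.Agent.P129BH

open Vale.Agent.P323.Z Vale.Agent.P129Z.S Vale.Agent.P129B

universe v

theorem poset (N : Type v) [ZM N] : POSET N := fun _ _ ⟨S⟩ =>
  ⟨S.PP, inferInstance, inferInstance, inferInstance, inferInstance, inferInstance, S.exists_rfo⟩

/-- **A model of ZFC with a measurable cardinal, or a cardinal with the Erdős partition property,
gives a model of ZFC with the free set principle.** -/
theorem exists_FS {M : Type v} {E : M → M → Prop} (h : IsZFCModel E)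
    (a : S.HasMeasurable E ∨ S.HasErdos E) : ∃ (N : Type) (_ : ZM N), FS N :=
  exists_FS_of (fun N _ => poset N) h a

end Vale.Agent.P129BH
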