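import Vale.Agent.P129B.Nat0

/-!
# End extensions of models: the ground model inside a generic extension
-/

namespace Vale.Agent.P129BH

open Vale.Agent.P129B

universe v w

variable {N : Type v} [ZM N] {M : Type w} [ZM M]

/-- `j` embeds `N` as a transitive class of `M`. -/
structure Ext (j : N → M) : Prop where
  inj : Function.Injective j
  mem : ∀ (x : N) (y : M), y ∈ j x ↔ ∃ z, z ∈ x ∧ j z = y

namespace Ext

variable {j : N → M} (h : Ext j)
include h

theorem mem_iff {x y : N} : j x ∈ j y ↔ x ∈ y := by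
  rw [h.mem]
  exact ⟨fun ⟨_, hz, e⟩ => h.inj e ▸ hz, fun hx => ⟨x, hx, rfl⟩⟩

theorem eq_iff {x y : N} : j x = j y ↔ x = y := h.inj.eq_iff

theorem j_emp : j (emp N) = emp M :=
  eq_emp fun z hz => by
    obtain ⟨u, hu, -⟩ := (h.mem _ _).1 hz
    exact not_mem_emp u hu

theorem j_upair (x y : N) : j (upair x y) = upair (j x) (j y) :=
  ext fun z => by
    rw [h.mem, mem_upair]
    constructor
    · rintro ⟨u, hu, rfl⟩
      rcases mem_upair.1 hu with rfl | rfl
      exacts [Or.inl rfl, Or.inr rfl]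
    · rintro (rfl | rfl)
      exacts [⟨x, mem_upair.2 (Or.inl rfl), rfl⟩, ⟨y, mem_upair.2 (Or.inr rfl), rfl⟩]

theorem j_op (x y : N) : j (op x y) = op (j x) (j y) := by
  rw [op, op, h.j_upair, h.j_upair, h.j_upair]

theorem j_sUnion (x : N) : j (sUnion x) = sUnion (j x) :=
  ext fun z => by
    rw [h.mem, mem_sUnion]
    constructor
    · rintro ⟨u, hu, rfl⟩
      obtain ⟨y, hy, hy'⟩ := mem_sUnion.1 hu
      exact ⟨j y, h.mem_iff.2 hy, h.mem_iff.2 hy'⟩
    · rintro ⟨y, hy, hz⟩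
      obtain ⟨y, hy', rfl⟩ := (h.mem _ _).1 hy
      obtain ⟨u, hu, rfl⟩ := (h.mem _ _).1 hz
      exact ⟨u, mem_sUnion.2 ⟨y, hy', hu⟩, rfl⟩

theorem j_un (x y : N) : j (un x y) = un (j x) (j y) := by
  rw [un, un, h.j_sUnion, h.j_upair]

theorem j_ins (x y : N) : j (ins x y) = ins (j x) (j y) := by
  rw [ins, ins, h.j_un, h.j_upair]

theorem j_num (n : ℕ) : j (num n) = num n := by
  induction n with
  | zero => exact h.j_emp
  | succ n ih => rw [num, num, h.j_ins, ih]

theorem j_omega : j (omega N) = omega M := by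
  have h1 : Ind (j (omega N)) := by
    refine ⟨h.j_emp ▸ h.mem_iff.2 ind_omega.1, fun x hx => ?_⟩
    obtain ⟨u, hu, rfl⟩ := (h.mem _ _).1 hx
    rw [← h.j_ins]
    exact h.mem_iff.2 (ind_omega.2 u hu)
  refine ext fun z => ⟨fun hz => ?_, fun hz => mem_omega.1 hz _ h1⟩
  by_contra hcon
  obtain ⟨b, hb⟩ := DefF.sep (N := M) (Q := fun x => x ∉ omega M) (by fun_prop) (j (omega N))
  obtain ⟨y, hy, hmin⟩ := found ((hb z).2 ⟨hz, hcon⟩)
  obtain ⟨hy1, hy2⟩ := (hb y).1 hy
  obtain ⟨n, hn, rfl⟩ := (h.mem _ _).1 hy1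
  rcases NN.zero_or_succ (NN.mk n hn) with e | ⟨m, e⟩
  · have : n = emp N := congrArg NN.val e
    rw [this, h.j_emp] at hy2
    exact hy2 ind_omega.1
  · have e' : n = ins m.val m.val := congrArg NN.val e
    rw [e', h.j_ins] at hy2 hmin
    refine hy2 (ind_omega.2 _ ?_)
    by_contra h3
    exact hmin _ ((hb _).2 ⟨h.mem_iff.2 m.prop, h3⟩) (mem_ins.2 (Or.inr rfl))

/-- the elements of `A` and of `j A` -/
noncomputable def el (A : N) : El A ≃ El (j A) :=
  Equiv.ofBijective (fun x => ⟨j x.1, h.mem_iff.2 x.2⟩)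
    ⟨fun _ _ e => Subtype.ext (h.inj (congrArg Subtype.val e)), fun y => by
      obtain ⟨z, hz, e⟩ := (h.mem _ _).1 y.2
      exact ⟨⟨z, hz⟩, Subtype.ext e⟩⟩

theorem el_val (A : N) (x : El A) : (h.el A x).1 = j x.1 := rfl

/-- the natural numbers of the two models -/
noncomputable def nn : NN N ≃o NN M where
  toEquiv := Equiv.ofBijective (fun n => NN.mk (j n.val) (h.j_omega ▸ h.mem_iff.2 n.prop))
    ⟨fun _ _ e => NN.ext (h.inj (congrArg NN.val e)), fun y => by
      obtain ⟨z, hz, e⟩ := (h.mem _ _).1 (h.j_omega.symm ▸ y.prop)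
      exact ⟨NN.mk z hz, NN.ext e⟩⟩
  map_rel_iff' {a b} := by
    rw [← not_lt, ← not_lt, NN.lt_def, NN.lt_def]
    exact not_congr h.mem_iff

theorem nn_val (n : NN N) : (h.nn n).val = j n.val := rfl

theorem nn_zero : h.nn 0 = 0 := NN.ext h.j_emp

theorem nn_succ (n : NN N) : h.nn n.succ = (h.nn n).succ := NN.ext (h.j_ins _ _)

end Ext

/-! ### Transfer of codes -/

variable {α β : Type*} [Coded N α] [Coded N β] {α' β' : Type*} [Coded M α'] [Coded M β']

/-- `e` sends internal elements of `N` to internal elements of `M` with the same code. -/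
def Tr (j : N → M) {α α' : Type*} [Coded N α] [Coded M α'] (e : α → α') : Prop :=
  ∀ a, Intl N a → Intl M (e a) ∧ code M (e a) = j (code N a)

variable {j : N → M}

theorem Tr.intl {e : α → α'} (t : Tr j e) (a : α) [ha : Intl N a] : Intl M (e a) := (t a ha).1

theorem Tr.code {e : α → α'} (t : Tr j e) (a : α) [ha : Intl N a] :
    code M (e a) = j (code N a) := (t a ha).2

theorem Tr.inj (h : Ext j) {e : α → α'} (t : Tr j e) {a b : α} (ha : Intl N a) (hb : Intl N b)
    (hab : e a = e b) : a = b :=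
  code_inj ha hb (h.inj (by rw [← t.code, ← t.code, hab]))

theorem defF_lt {x y : α → NN N} (hx : DefF N x) (hy : DefF N y) :
    DefF N (fun a => x a < y a) := hx.nnVal.memN hy.nnVal

theorem tr_self : Tr j j := fun _ _ => ⟨inferInstance, rfl⟩

namespace Ext

variable (h : Ext j)
include h

theorem tr_el (A : N) : Tr j (h.el A) := fun _ _ => ⟨inferInstance, rfl⟩

theorem tr_nn : Tr j h.nn := fun _ _ => ⟨inferInstance, rfl⟩

theorem tr_prop : Tr j (id : Prop → Prop) := fun p _ => ⟨inferInstance, by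
  rw [code_prop, code_prop]
  by_cases hp : p
  · rw [if_pos hp, if_pos (show id p from hp), h.j_num]
  · rw [if_neg hp, if_neg (show ¬ id p from hp), h.j_num]⟩

theorem tr_prod {e : α → α'} {f : β → β'} (t : Tr j e) (s : Tr j f) : Tr j (Prod.map e f) := by
  intro p hp
  have h1 := t.intl p.1
  have h2 := s.intl p.2
  refine ⟨intl_prod.2 ⟨h1, h2⟩, ?_⟩
  rw [code_prod, code_prod, h.j_op, ← t.code, ← s.code]
  rfl

theorem tr_set {e : α → α'} (t : Tr j e) : Tr j (Set.image e) := by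
  intro s hs
  have key : ∀ x : M, x ∈ j (code N s) ↔ ∃ a ∈ e '' s, code M a = x := by
    intro x
    rw [h.mem]
    constructor
    · rintro ⟨z, hz, rfl⟩
      obtain ⟨a, ha, rfl⟩ := (mem_code_set hs).1 hz
      exact ⟨e a, ⟨a, ha, rfl⟩, (t a (hs.of_mem ha)).2⟩
    · rintro ⟨_, ⟨a, ha, rfl⟩, rfl⟩
      exact ⟨code N a, (mem_code_set hs).2 ⟨a, ha, rfl⟩, (t a (hs.of_mem ha)).2.symm⟩
  have h1 : Intl M (e '' s) := intl_set.2 ⟨by
    rintro _ ⟨a, ha, rfl⟩
    exact (t a (hs.of_mem ha)).1, _, key⟩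
  exact ⟨h1, ext fun x => (mem_code_set h1).trans (key x).symm⟩

theorem tr_fun [Tot N α] [Tot M α'] {e : α ≃ α'} {f : β → β'} (t : Tr j e) (s : Tr j f) :
    Tr j (fun (g : α → β) (a : α') => f (g (e.symm a))) := by
  intro g hg
  have h1 := h.tr_set (h.tr_prod t s) (graph g) (intl_fun_graph.1 hg)
  have h2 : Prod.map e f '' graph g = graph (fun a : α' => f (g (e.symm a))) := by
    ext p
    constructor
    · rintro ⟨q, hq, rfl⟩
      have : g q.1 = q.2 := hq
      change f (g (e.symm (e q.1))) = f q.2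
      rw [e.symm_apply_apply, this]
    · intro hp
      exact ⟨(e.symm p.1, g (e.symm p.1)), rfl, Prod.ext (e.apply_symm_apply _) hp⟩
  rw [h2] at h1
  exact ⟨intl_fun_graph.2 h1.1, h1.2⟩

/-- An internal function of `N` is an internal function of `M`. -/
theorem intl_fun [Tot N α] [Tot M α'] {e : α ≃ α'} {f : β → β'} (t : Tr j e) (s : Tr j f)
    (g : α → β) [Intl N g] : Intl M (fun a : α' => f (g (e.symm a))) := (h.tr_fun t s).intl g

/-- A definable function of `N` on a set is a definable function of `M`. -/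
theorem defF [Tot N α] [Tot M α'] {e : α ≃ α'} {f : β → β'} (t : Tr j e) (s : Tr j f)
    {g : α → β} (hg : DefF N g) : DefF M (fun a : α' => f (g (e.symm a))) := by
  have := hg.toIntl
  have := h.intl_fun t s g
  exact DefF.ofIntl _

theorem defP [Tot N α] [Tot M α'] {e : α ≃ α'} (t : Tr j e) {P : α → Prop} (hP : DefF N P) :
    DefF M (fun a : α' => P (e.symm a)) := h.defF t h.tr_prop hP

theorem tr_prodE {e : α ≃ α'} {f : β ≃ β'} (t : Tr j e) (s : Tr j f) : Tr j (e.prodCongr f) :=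
  h.tr_prod t s

/-- A definable binary operation of `N`, in `M`. -/
theorem defF2 {γ γ' : Type*} [Coded N γ] [Coded M γ'] [Tot N α] [Tot M α'] [Tot N β] [Tot M β']
    {e : α ≃ α'} {e' : β ≃ β'} {f : γ → γ'} (t : Tr j e) (t' : Tr j e') (s : Tr j f)
    {g : α → β → γ} (hg : DefF N (fun p : α × β => g p.1 p.2)) :
    DefF M (fun p : α' × β' => f (g (e.symm p.1) (e'.symm p.2))) :=
  h.defF (h.tr_prodE t t') s hg

/-- The set of the transferred internal elements is internal. -/
theorem intl_img [Bdd N α] {e : α → α'} (t : Tr j e) : Intl M (e '' {a | Intl N a}) :=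
  (h.tr_set t).intl _

/-- An initial part of an internal sequence of `M` with values in the ground model belongs to the
ground model. -/
theorem fin_seq [Bdd N β] {f : β → β'} (s : Tr j f) (b₀ : β) [Intl N b₀] (u : NN M → β')
    [Intl M u] (n : NN M) (hu : ∀ i < n, ∃ b, Intl N b ∧ f b = u i) :
    ∃ g : NN N → β, Intl N g ∧ ∀ i, h.nn i < n → f (g i) = u (h.nn i) := by
  classical
  have t := h.tr_fun (e := h.nn.toEquiv) h.tr_nn s
  have hS := h.intl_img t
  have hB := h.intl_img s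
  set S := (fun (g : NN N → β) (a : NN M) => f (g (h.nn.toEquiv.symm a))) '' {a | Intl N a}
  set B := f '' {a | Intl N a}
  have key : ∀ n : NN M, (∀ i, i < n → u i ∈ B) → ∃ w ∈ S, ∀ i, i < n → app w i = u i := by
    refine NN.ind' ?_ ?_ ?_
    · refine DefF.imp (DefF.allT ((defF_lt ?_ ?_).imp ?_))
        (DefF.bex ?_ (DefF.allT ((defF_lt ?_ ?_).imp ?_))) <;> fun_prop
    · exact fun _ => ⟨_, ⟨fun _ => b₀, intl_const b₀, rfl⟩,
        fun i hi => absurd hi (NN.not_lt_zero' i)⟩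
    · intro n ih hn
      obtain ⟨_, ⟨g, hg, rfl⟩, hw⟩ := ih fun i hi => hn i (NN.lt_succ'.2 hi.le)
      obtain ⟨b, hb, hb'⟩ := hn n (NN.lt_succ'.2 le_rfl)
      have hg' : Intl N g := hg
      have hb2 : Intl N b := hb
      refine ⟨_, ⟨Function.update g (h.nn.symm n) b, intl_update g _ b, rfl⟩, fun i hi => ?_⟩
      change f (Function.update g (h.nn.symm n) b (h.nn.symm i)) = u i
      rcases (NN.lt_succ'.1 hi).lt_or_eq with h1 | rfl
      · rw [Function.update_of_ne (fun e => h1.ne (h.nn.symm.injective e))]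
        exact hw i h1
      · rw [Function.update_self, hb']
  obtain ⟨_, ⟨g, hg, rfl⟩, hw⟩ := key n fun i hi => hu i hi
  refine ⟨g, hg, fun i hi => ?_⟩
  have := hw _ hi
  change f (g (h.nn.symm (h.nn i))) = _ at this
  rwa [OrderIso.symm_apply_apply] at this

/-- Bounded internal sets of natural numbers of `M` belong to the ground model. -/
theorem fin_set (T : Set (NN M)) [Intl M T] {n : NN M} (hT : ∀ i ∈ T, i < n) :
    ∃ T₀ : Set (NN N), Intl N T₀ ∧ h.nn '' T₀ = T := by
  have h1 : Intl M (fun i : NN M => i ∈ T) := DefF.toIntl (by fun_prop)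
  obtain ⟨g, hg, hg'⟩ := h.fin_seq h.tr_prop True (fun i : NN M => i ∈ T) n
    fun i _ => ⟨_, inferInstance, rfl⟩
  have h2 : DefF N (fun i : NN N => i < h.nn.symm n ∧ g i) :=
    DefF.and (DefF.id.nnVal.memN (DefF.const _).nnVal) (DefF.ofIntl g)
  refine ⟨_, intl_setOfT h2, Set.ext fun i => ⟨?_, fun hi => ?_⟩⟩
  · rintro ⟨k, ⟨h3, h4⟩, rfl⟩
    exact (hg' k (h.nn.lt_symm_apply.1 h3) : g k = _) ▸ h4
  · obtain ⟨k, rfl⟩ := h.nn.surjective i
    exact ⟨k, ⟨h.nn.lt_symm_apply.2 (hT _ hi), (hg' k (hT _ hi) : g k = _).mpr hi⟩, rfl⟩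

end Ext

end Vale.Agent.P129BH
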