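import Vale.Agent.P129BH.Arith
import Vale.Agent.P129BQ.Defs
import Vale.Agent.P129BO.FS

/-!
# The free set principle holds in the random extension
-/

namespace Vale.Agent.P129BH

open Vale.Agent.P129B

universe v w

variable {N : Type v} [ZM N] {M : Type w} [ZM M] {j : N → M}
variable {P : Type*} [Coded N P] [Tot N P] [Preorder P] {G : Set P}
variable {α α' : Type*} [Coded N α] [Coded M α']

/-- Generic subsets of sets of the ground model, for coded types. -/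
theorem gext_comp (hj : Ext j) (hG : GExt j G) [Tot N α] {e : α → α'} (te : Tr j e)
    {φ : α → P → Prop} (hφ : DefF N (fun t : α × P => φ t.1 t.2)) :
    ∃ s : M, ∀ a, code M (e a) ∈ s ↔ ∃ p ∈ G, φ a p := by
  obtain ⟨s, hs⟩ := hG.comp (car N α) (fun x p => ∃ a : α, code N a = x ∧ φ a p) (by fun_prop)
  refine ⟨s, fun a => (hs _).trans ⟨?_, ?_⟩⟩
  · rintro ⟨_, -, h1, p, hp, b, rfl, h2⟩
    rw [te.code] at h1
    obtain rfl : b = a := code_inj inferInstance inferInstance (hj.inj h1)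
    exact ⟨p, hp, h2⟩
  · rintro ⟨p, hp, h2⟩
    exact ⟨_, mem_car.2 ⟨a, rfl⟩, (te.code a).symm, p, hp, a, rfl, h2⟩

/-- A predicate which is decided along the filter is definable in the extension. -/
theorem gext_defP (hj : Ext j) (hG : GExt j G) [Tot N α] [Tot M α'] {e : α ≃ α'} (te : Tr j e)
    {φ : α → P → Prop} (hφ : DefF N (fun t : α × P => φ t.1 t.2)) :
    DefF M (fun a : α' => ∃ p ∈ G, φ (e.symm a) p) := by
  obtain ⟨s, hs⟩ := gext_comp hj hG te hφ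
  have : DefF M (fun a : α' => code M a ∈ s) := by fun_prop
  exact this.congrP fun a _ => by rw [← hs, e.apply_symm_apply]

/-- Names of internal sets of the extension, for coded types. -/
theorem gext_name (hG : GExt j G) {e : α → α'} (te : Tr j e) (S : Set α') [hS : Intl M S] :
    ∃ φ : α → P → Prop, DefF N (fun t : α × P => φ t.1 t.2) ∧
      (∀ x p q, q ≤ p → φ x p → φ x q) ∧ ∀ a, Intl N a → (e a ∈ S ↔ ∃ p ∈ G, φ a p) := by
  obtain ⟨φ, h1, h2, h3⟩ := hG.name (code M S)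
  refine ⟨fun a p => φ (code N a) p, by fun_prop, fun a => h2 _, fun a ha => ?_⟩
  rw [← h3, ← te.code, code_mem_code hS (te.intl a)]

section Main

variable {K : Type*} [Coded N K] [Tot N K]

/-- the condition `q` makes the level `(T, m)` of the name `φ` large -/
def Big (φ : Set K × NN N × NN N × NN N × NN N → P → Prop) (T : Set K) (m : NN N) (q : P) :
    Prop :=
  (∃ k n x n' x', φ (T, m, k, n, x) q ∧ φ (T, m, k, n', x') q ∧ n ≠ n') ∨
    ∃ k n c, Many {x | φ (T, m, k, n, x) q} n c ∧ ¬ c * (k + 1) ^ 2 ≤ n + 1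

variable {φ : Set K × NN N × NN N × NN N × NN N → P → Prop}

omit [Tot N P] [Preorder P] [Tot N K] in
@[fun_prop] theorem defF_big {T : α → Set K} {m : α → NN N} {q : α → P}
    (hφ : DefF N (fun t : (Set K × NN N × NN N × NN N × NN N) × P => φ t.1 t.2))
    (hT : DefF N T) (hm : DefF N m) (hq : DefF N q) :
    DefF N (fun a => Big φ (T a) (m a) (q a)) := by
  unfold Big
  refine DefF.or (by fun_prop) (DefF.exT (DefF.exT (DefF.exT (DefF.and
    (DefF.many (DefF.setOfT ?_) ?_ ?_) ?_)))) <;> fun_prop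

variable {ev : K → NN N → NN N → NN N → P → Prop}

theorem rfo_dev {u : NN N → NN N} (hR : RFo N K P u ev) :
    DefF N (fun t : K × NN N × NN N × NN N × P =>
      ev t.1 t.2.1 t.2.2.1 t.2.2.2.1 t.2.2.2.2) :=
  hR.dev.comp2 (F := fun (t : K × NN N × NN N × NN N) (p : P) => ev t.1 t.2.1 t.2.2.1 t.2.2.2 p)
    (f := fun t : K × NN N × NN N × NN N × P => (t.1, t.2.1, t.2.2.1, t.2.2.2.1))
    (g := fun t => t.2.2.2.2) (by fun_prop) (by fun_prop)

variable [DefLE N P]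

/-- In the ground model: a sequence which is free for the name `φ`. -/
theorem exists_free (hR : RFo N K P (fun k => (k + 1) ^ 2) ev) (hF : HasFree N K)
    (hφ : DefF N (fun t : (Set K × NN N × NN N × NN N × NN N) × P => φ t.1 t.2))
    (hm : ∀ x p q, q ≤ p → φ x p → φ x q) :
    ∃ g : NN N → K, Intl N g ∧ ∀ T : Set (NN N), Intl N T → (∃ b, ∀ i ∈ T, i < b) →
      ∀ i, i ∉ T → ∀ m q, ∃ p, p ≤ q ∧ ∃ k₀, ∀ k, k₀ ≤ k → ∀ n x r, r ≤ p → ev (g i) k n x r →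
        ¬ (φ (g '' T, m, k, n, x) r ∧ ∀ s, s ≤ r → ¬ Big φ (g '' T) m s) := by
  have hev := rfo_dev hR
  have key : ∀ t : Set K × NN N, Intl N t → ∃ e : NN N → K, Intl N e ∧ ∀ a, (∀ n, a ≠ app e n) →
      ∀ q, ∃ p, p ≤ q ∧ ∃ k₀, ∀ k, k₀ ≤ k → ∀ n x r, r ≤ p → ev a k n x r →
        ¬ (φ (t.1, t.2, k, n, x) r ∧ ∀ s, s ≤ r → ¬ Big φ t.1 t.2 s) := by
    intro t ht
    obtain ⟨Δ, -, ⟨e, he, he'⟩, h⟩ := hR.avoid
      (fun k n x r => φ (t.1, t.2, k, n, x) r ∧ ∀ s, s ≤ r → ¬ Big φ t.1 t.2 s) (by fun_prop)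
      (fun k n x p q h1 h2 => ⟨hm _ _ _ h1 h2.1, fun s hs => h2.2 s (hs.trans h1)⟩)
      (fun k n n' x y p h1 h2 => by
        by_contra h3
        exact h1.2 p le_rfl (Or.inl ⟨k, n, x, n', y, h1.1, h2.1, h3⟩))
      (fun k n c p h1 => by
        by_contra h2
        obtain ⟨f, h3, h4, h5⟩ := id h1
        have h6 : 0 < c := pos_iff_ne_zero.2 fun h7 => h2 (by rw [h7, zero_mul]; exact zero_le)
        exact (h5 0 h6).2.2 p le_rfl (Or.inr ⟨k, n, c, h1.mono fun x _ hx => hx.1, h2⟩))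
    refine ⟨e, he, fun a ha => h a fun h1 => ?_⟩
    obtain ⟨n, hn⟩ := he' a h1
    exact ha n hn.symm
  have : Nonempty (NN N → K) := ⟨(key (∅, 0) inferInstance).choose⟩
  obtain ⟨f, hf, hf'⟩ := exists_defF_choice (by fun_prop) key
  obtain ⟨g, hg, hg'⟩ := hF (fun T m n => f (T, m) n) (DefF.ap (by fun_prop) (by fun_prop))
  refine ⟨g, hg, fun T hT hb i hi m => ?_⟩
  have := intl_image (DefF.ofIntl (N := N) g) T
  exact hf' (g '' T, m) inferInstance (g i) (hg' T hT hb i hi m)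

end Main

/-- **The free set principle in the extension by random forcing.** -/
theorem fs_of [DefLE N P] {A : N} {ev : El A → NN N → NN N → NN N → P → Prop} (hj : Ext j)
    (hG : GExt j G) (hR : RFo N (El A) P (fun k => (k + 1) ^ 2) ev) (hF : HasFree N (El A)) :
    FS M := by
  have hev := rfo_dev hR
  have h0 : ∀ a k n, ∃ x, ∃ p ∈ G, ev a k n x p := fun a k n => by
    obtain ⟨p, hp, x, hx⟩ := hG.gen (fun p => ∃ x, ev a k n x p) (by fun_prop) (hR.dense a k n)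
    exact ⟨x, p, hp, hx⟩
  choose r hr using h0
  have hu : ∀ a k n x, (∃ p ∈ G, ev a k n x p) → r a k n = x := by
    rintro a k n x ⟨p, hp, hx⟩
    obtain ⟨q, hq, hy⟩ := hr a k n
    obtain ⟨s, -, h1, h2⟩ := hG.dir p hp q hq
    exact hR.uniq a k n _ _ s (hR.mono _ _ _ _ _ _ h2 hy) (hR.mono _ _ _ _ _ _ h1 hx)
  have tn : Tr j hj.nn.toEquiv := hj.tr_nn
  refine ⟨j A, fun a k n => hj.nn (r ((hj.el A).symm a) (hj.nn.symm k) (hj.nn.symm n)),
    ?_, fun a k n => ?_, fun S hS hsm => ?_⟩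
  · have h1 := gext_defP hj hG
      (hj.tr_prodE (hj.tr_prodE (hj.tr_prodE (hj.tr_el A) tn) tn) tn)
      (φ := fun t p => ev t.1.1.1 t.1.1.2 t.1.2 t.2 p) (by fun_prop)
    have h2 : DefF M (fun t : (El (j A) × NN M) × NN M =>
        hj.nn (r ((hj.el A).symm t.1.1) (hj.nn.symm t.1.2) (hj.nn.symm t.2))) :=
      defF_of_rel (fun _ _ => inferInstance) h1 fun t x _ _ =>
        ⟨fun h => (congrArg hj.nn (hu _ _ _ _ h)).trans (hj.nn.apply_symm_apply x),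
          fun h => by
            obtain ⟨p, hp, h3⟩ := hr ((hj.el A).symm t.1.1) (hj.nn.symm t.1.2) (hj.nn.symm t.2)
            rw [hj.nn.eq_symm_apply.2 h] at h3
            exact ⟨p, hp, h3⟩⟩
    exact (DefF.lam _ (DefF.lam _ h2)).toIntl
  · obtain ⟨p, -, hp⟩ := hr ((hj.el A).symm a) (hj.nn.symm k) (hj.nn.symm n)
    exact hj.nn.le_symm_apply.1 (hR.le _ _ _ _ _ hp)
  obtain ⟨φ, hφ, hm, hS'⟩ := gext_name hG (hj.tr_prod (hj.tr_set (hj.tr_el A))
    (hj.tr_prod tn (hj.tr_prod tn (hj.tr_prod tn tn)))) S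
  have hin : ∀ (T : Set (El A)) m k n x, Intl N T →
      ((hj.el A '' T, hj.nn m, hj.nn k, hj.nn n, hj.nn x) ∈ S ↔ ∃ p ∈ G, φ (T, m, k, n, x) p) :=
    fun T m k n x _ => hS' (T, m, k, n, x) inferInstance
  have good : ∀ (T : Set (El A)) m, Intl N T → ∃ p ∈ G, ∀ s, s ≤ p → ¬ Big φ T m s := by
    intro T m hT
    obtain ⟨p, hp, h1⟩ := hG.gen (fun p => Big φ T m p ∨ ∀ s, s ≤ p → ¬ Big φ T m s)
      (by fun_prop) fun q => by
        by_cases h : ∃ s, s ≤ q ∧ Big φ T m s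
        · exact h.imp fun s hs => ⟨hs.1, Or.inl hs.2⟩
        · exact ⟨q, le_rfl, Or.inr fun s h1 h2 => h ⟨s, h1, h2⟩⟩
    refine ⟨p, hp, h1.resolve_left ?_⟩
    rintro (⟨k, n, x, n', x', h2, h3, h4⟩ | ⟨k, n, c, ⟨f, h2, h3, h4⟩, h5⟩)
    · exact h4 (hj.nn.injective ((hsm _ _ _).1 _ _ _ _ ((hin T m k n x hT).2 ⟨p, hp, h2⟩)
        ((hin T m k n' x' hT).2 ⟨p, hp, h3⟩)))
    · have h6 := (hsm (hj.el A '' T) (hj.nn m) (hj.nn k)).2 (hj.nn n) (hj.nn c) _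
        (hj.intl_fun tn tn f)
        (fun a b hab hb => hj.nn_lt.2 (h3 _ _ (hj.nn.symm.strictMono hab)
          (hj.nn.symm_apply_lt.2 hb)))
        fun a ha => ⟨hj.nn_le.2 (h4 _ (hj.nn.symm_apply_lt.2 ha)).1,
          (hin T m k n _ hT).2 ⟨p, hp, (h4 _ (hj.nn.symm_apply_lt.2 ha)).2⟩⟩
      rw [← hj.nn_one, ← hj.nn_add, ← hj.nn_add, ← hj.nn_pow, ← hj.nn_mul] at h6
      exact h5 (hj.nn_le.1 h6)
  obtain ⟨g, hg, hg'⟩ := exists_free hR hF hφ hm
  refine ⟨_, hj.intl_fun tn (hj.tr_el A) g, ?_⟩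
  rintro T hT ⟨b, hb⟩ i hi m
  obtain ⟨T, hT', rfl⟩ := hj.fin_set T hb
  obtain ⟨i, rfl⟩ := hj.nn.surjective i
  obtain ⟨m, rfl⟩ := hj.nn.surjective m
  have hU := intl_image (DefF.ofIntl (N := N) g) T
  obtain ⟨p, hp, k₀, h1⟩ := hG.gen (fun p => ∃ k₀, ∀ k, k₀ ≤ k → ∀ n x r, r ≤ p →
    ev (g i) k n x r → ¬ (φ (g '' T, m, k, n, x) r ∧ ∀ s, s ≤ r → ¬ Big φ (g '' T) m s))
    (by fun_prop) (hg' T hT' ⟨hj.nn.symm b, fun a ha => hj.nn.lt_symm_apply.2 (hb _ ⟨a, ha, rfl⟩)⟩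
      i (fun h => hi ⟨i, h, rfl⟩) m)
  refine ⟨hj.nn k₀, fun k hk n hn => ?_⟩
  obtain ⟨k, rfl⟩ := hj.nn.surjective k
  obtain ⟨n, rfl⟩ := hj.nn.surjective n
  have e1 : (fun a => hj.el A (g (hj.nn.toEquiv.symm a))) '' (hj.nn '' T) =
      hj.el A '' (g '' T) := by
    rw [Set.image_image, Set.image_image]
    exact Set.image_congr' fun a => congrArg (fun x => hj.el A (g x)) (hj.nn.symm_apply_apply a)
  have e2 : hj.nn.toEquiv.symm (hj.nn i) = i := hj.nn.symm_apply_apply i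
  simp only [e1, e2, Equiv.symm_apply_apply, OrderIso.symm_apply_apply] at hn
  obtain ⟨p₁, hp₁, h2⟩ := (hin _ _ _ _ _ hU).1 hn
  obtain ⟨p₂, hp₂, h3⟩ := good _ m hU
  obtain ⟨p₃, hp₃, h4⟩ := hr (g i) k n
  obtain ⟨q, hq, l1, l2⟩ := hG.dir p hp p₁ hp₁
  obtain ⟨q', hq', l3, l4⟩ := hG.dir p₂ hp₂ p₃ hp₃
  obtain ⟨s, -, l5, l6⟩ := hG.dir q hq q' hq'
  exact h1 k (hj.nn_le.1 hk) n _ s (l5.trans l1) (hR.mono _ _ _ _ _ _ (l6.trans l4) h4)
    ⟨hm _ _ _ (l5.trans l2) h2, fun u hu => h3 u (hu.trans (l6.trans l3))⟩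

end Vale.Agent.P129BH
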